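import Vale.Agent.P216.H893D.OmL0
import Vale.Agent.P216.H892.FibO
import Vale.Agent.P216.H894.GenAr
import Vale.Agent.P216.H550.OmC
import Vale.Agent.P216.H754B.Rev
import Vale.Agent.P216.H774D.Pwr

/-!
# P216-D, [OML-C], [OML-1]: `OmL` from `OmegaOutC`, `OmegaOut` and the weights
-/

set_option linter.all false

open Set BoundedContinuousFunction

namespace Vale.Agent.P216.H893D

open Sl PS
open Vale.Agent.P216.AS (res pull)
open Vale.Agent.P216.B64 (HU hres hpull UMap hone a0 c0 OmegaOut OmegaOutC OmegaSignC OmegaSign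
  RevP)
open Vale.Agent.P216.H894 (FsE FsO wE wO wE_W wE_A)
open Vale.Agent.P216.H892 (OmL)
open Vale.Agent.P216.H754B (rv rv_mem_P dist_rv_le)
open Vale.Agent.P216.H774D (pwr pwr_mem_P dist_pwr)

variable {k : Type} [Field k] {M : Type} [MetricSpace M] {x₀ : M} {B : ℝ}

/-- `W i (i B) ≠ 0` and `A i (i B + 2 B) ≠ 0`. -/
theorem W_alive {q N : ℕ} (O : OmegaOutC M q N x₀ B k) (hB : 0 < B) (j : ℕ) :
    O.W j (j * B) ≠ 0 := by
  induction j with
  | zero =>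
    rw [Nat.cast_zero, zero_mul]
    exact O.W_ne 0 le_rfl
  | succ j ih =>
    have h2 := O.b3 j (j * B) (by positivity) ih
    rw [Nat.cast_succ, add_mul, one_mul]
    exact h2

theorem W_alive' {q N : ℕ} (O : OmegaOutC M q N x₀ B k) (hB : 0 < B) (j : ℕ) {t : ℝ}
    (ht : j * B ≤ t) : O.W j t ≠ 0 := by
  intro h
  refine W_alive O hB j ?_
  rw [← O.res_W j _ t ht, h, map_zero]

theorem A_alive {q N : ℕ} (O : OmegaOutC M q N x₀ B k) (hB : 0 < B) (j : ℕ) :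
    O.A j ((j + 1 : ℕ) * B + B) ≠ 0 :=
  O.b2 j _ (by positivity) (W_alive O hB (j + 1))

/-- **[OML-C]** -/
theorem omL_C {q N d : ℕ} (O : OmegaOutC M q N x₀ B k) (hB : 0 < B) (hq : q = d - 1)
    {θ : ℝ → (ℝ →ᵇ M) → (ℝ →ᵇ M)} {m : ℝ} (hm : 1 ≤ m) {w : ℕ → k}
    (hθ : ∀ s > 0, UMap (P x₀ x₀ s) (P x₀ x₀ (m * s)) (θ s))
    (hwW : ∀ j, 0 < j → ∀ s > 0, ∀ h : UMap (P x₀ x₀ s) (P x₀ x₀ (m * s)) (θ s),
      hpull k h (j * N) (O.W j (m * s)) = w (j * N) • O.W j s)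
    (hwA : ∀ j, ∀ s > 0, ∀ h : UMap (P x₀ x₀ s) (P x₀ x₀ (m * s)) (θ s),
      hpull k h (j * N + q) (O.A j (m * s)) = w (j * N + q) • O.A j s) :
    OmL k (fun t => P x₀ x₀ t) θ m (FsE d N) w := by
  subst hq
  have mono : ∀ {s t : ℝ}, s ≤ t → P x₀ x₀ s ⊆ P x₀ x₀ t := fun h => P_mono h
  refine ⟨fun t ht => ?_, fun q' hq' t ht => ?_, fun q' hq' hq0 => ?_⟩
  · refine ⟨t + B, by linarith, fun F hF => ?_⟩
    have hsp : ∀ t, 0 ≤ t → ∀ (h : P x₀ x₀ t ⊆ P x₀ x₀ (t + B)) (z : HU k (P x₀ x₀ (t + B)) 0),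
        ∃ c : k, hres k h 0 z = c • (cast (congrArg (HU k (P x₀ x₀ t)) (Nat.zero_mul N))
          (O.W 0 t) : HU k (P x₀ x₀ t) 0) := by
      have key : ∀ (n : ℕ) (hn : 0 * N = n) t, 0 ≤ t → ∀ (h : P x₀ x₀ t ⊆ P x₀ x₀ (t + B))
          (z : HU k (P x₀ x₀ (t + B)) n), ∃ c : k, hres k h n z =
            c • (cast (congrArg (HU k (P x₀ x₀ t)) hn) (O.W 0 t) : HU k (P x₀ x₀ t) n) := by
        intro n hn
        subst hn
        exact fun t ht h z => O.spanW 0 t ht h z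
      exact key 0 (Nat.zero_mul N)
    exact zero_of (O := fun t => P x₀ x₀ t) _ hB.le hsp ht.le (mono (by linarith)) hF
  · refine ⟨t + B, by linarith, fun F hF => ?_⟩
    exact null_of (O := fun t => P x₀ x₀ t) (mono (by linarith)) (fun z => O.zero q'
      (fun j h => hq' ⟨j, Or.inl h⟩) (fun j h => hq' ⟨j, Or.inr h⟩) t ht.le _ z) hF
  · obtain ⟨j, rfl | rfl⟩ := hq'
    · have hj : 0 < j := by
        rcases Nat.eq_zero_or_pos j with rfl | h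
        · exact absurd (Nat.zero_mul N) hq0
        · exact h
      exact line_of (O := fun t => P x₀ x₀ t) mono (O.W j) (O.res_W j) hB.le (O.spanW j)
        (t₀ := j * B) (by positivity) (W_alive O hB j) hm hθ (hwW j hj)
    · exact line_of (O := fun t => P x₀ x₀ t) mono (O.A j) (O.res_A j) hB.le (O.spanA j)
        (t₀ := (j + 1 : ℕ) * B + B) (by positivity) (A_alive O hB j) hm hθ (hwA j)

theorem om_alive {m : ℕ} (O : OmegaOut M m x₀ B k) (hB : 0 ≤ B) (j : ℕ) :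
    O.om j (1 + j * B) ≠ 0 := by
  induction j with
  | zero =>
    rw [Nat.cast_zero, zero_mul]
    exact O.om_ne _ (by norm_num)
  | succ j ih =>
    intro h2
    rw [Nat.cast_succ, add_mul, one_mul, ← add_assoc] at h2
    exact ih (O.down j _ (by positivity) h2)

/-- **[OML-1]**, in general. -/
theorem omL_om {b : ℕ} (O : OmegaOut M b x₀ B k) (hB : 0 ≤ B) {Fs : ℕ → Prop}
    (hFs : ∀ q, Fs q ↔ ∃ j, q = j * b)
    {θ : ℝ → (ℝ →ᵇ M) → (ℝ →ᵇ M)} {m : ℝ} (hm : 1 ≤ m) {w : ℕ → k}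
    (hθ : ∀ s > 0, UMap (P x₀ x₀ s) (P x₀ x₀ (m * s)) (θ s))
    (hw : ∀ j, 0 < j → ∀ s > 0, ∀ h : UMap (P x₀ x₀ s) (P x₀ x₀ (m * s)) (θ s),
      hpull k h (j * b) (O.om j (m * s)) = w (j * b) • O.om j s) :
    OmL k (fun t => P x₀ x₀ t) θ m Fs w := by
  have mono : ∀ {s t : ℝ}, s ≤ t → P x₀ x₀ s ⊆ P x₀ x₀ t := fun h => P_mono h
  refine ⟨fun t ht => ?_, fun q' hq' t ht => ?_, fun q' hq' hq0 => ?_⟩
  · refine ⟨t + B, by linarith, fun F hF => ?_⟩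
    have hsp : ∀ t, 0 ≤ t → ∀ (h : P x₀ x₀ t ⊆ P x₀ x₀ (t + B)) (z : HU k (P x₀ x₀ (t + B)) 0),
        ∃ c : k, hres k h 0 z = c • (cast (congrArg (HU k (P x₀ x₀ t)) (Nat.zero_mul b))
          (O.om 0 t) : HU k (P x₀ x₀ t) 0) := by
      have key : ∀ (i : ℕ) (hn : 0 * b = i) t, 0 ≤ t → ∀ (h : P x₀ x₀ t ⊆ P x₀ x₀ (t + B))
          (z : HU k (P x₀ x₀ (t + B)) i), ∃ c : k, hres k h i z =
            c • (cast (congrArg (HU k (P x₀ x₀ t)) hn) (O.om 0 t) : HU k (P x₀ x₀ t) i) := by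
        intro i hn
        subst hn
        exact fun t ht h z => O.span 0 t ht h z
      exact key 0 (Nat.zero_mul b)
    exact zero_of (O := fun t => P x₀ x₀ t) _ hB hsp ht.le (mono (by linarith)) hF
  · refine ⟨t + B, by linarith, fun F hF => ?_⟩
    refine null_of (O := fun t => P x₀ x₀ t) (mono (by linarith)) (fun z => O.zero q' ?_ t ht.le
      _ z) hF
    rintro ⟨j, rfl⟩
    exact hq' ((hFs _).2 ⟨j, Nat.mul_comm _ _⟩)
  · obtain ⟨j, rfl⟩ := (hFs _).1 hq'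
    have hj : 0 < j := by
      rcases Nat.eq_zero_or_pos j with rfl | h
      · exact absurd (Nat.zero_mul _) hq0
      · exact h
    exact line_of (O := fun t => P x₀ x₀ t) mono (O.om j) (O.res_om j) hB (O.span j)
      (t₀ := 1 + j * B) (by positivity) (om_alive O hB j) hm hθ (hw j hj)

theorem fsO_iff {n q : ℕ} : FsO n q ↔ ∃ j, q = j * (n - 1) := Iff.rfl

/-- the degrees for `h = 1`, `n` even -/
theorem fsE_iff {n q : ℕ} (hn : 1 ≤ n) : FsE n (2 * n - 2) q ↔ ∃ j, q = j * (n - 1) := by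
  obtain ⟨c, rfl⟩ : ∃ c, n = c + 1 := ⟨n - 1, by omega⟩
  have e1 : 2 * (c + 1) - 2 = 2 * c := by omega
  have e2 : c + 1 - 1 = c := rfl
  unfold FsE
  rw [e1, e2]
  constructor
  · rintro ⟨i, rfl | rfl⟩
    · exact ⟨2 * i, by ring⟩
    · exact ⟨2 * i + 1, by ring⟩
  · rintro ⟨j, rfl⟩
    obtain ⟨i, rfl | rfl⟩ : ∃ i, j = 2 * i ∨ j = 2 * i + 1 := ⟨j / 2, by omega⟩
    · exact ⟨i, Or.inl (by ring)⟩
    · exact ⟨i, Or.inr (by ring)⟩

/-! ### The power maps -/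

section Pw

variable [CompactSpace M]

/-- **The weights of the power maps** (285): `m^j` on `W j`, `m^(j+1)` on `A j`. -/
structure OmegaPwrC {q N : ℕ} (O : OmegaOutC M q N x₀ B k) (m : ℕ) : Prop where
  W : ∀ j t, 0 < t → ∀ h : UMap (P x₀ x₀ t) (P x₀ x₀ (m * t)) (pwr t m),
    hpull k h (j * N) (O.W j (m * t)) = (m : k) ^ j • O.W j t
  A : ∀ j t, 0 < t → ∀ h : UMap (P x₀ x₀ t) (P x₀ x₀ (m * t)) (pwr t m),
    hpull k h (j * N + q) (O.A j (m * t)) = (m : k) ^ (j + 1) • O.A j t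

/-- **The weights of the power maps** (941): `m^j` on `om j`, `b` even. -/
def OmegaPwrE {b : ℕ} (O : OmegaOut M b x₀ B k) (m : ℕ) : Prop :=
  ∀ j t, 0 < t → ∀ h : UMap (P x₀ x₀ t) (P x₀ x₀ (m * t)) (pwr t m),
    hpull k h (j * b) (O.om j (m * t)) = (m : k) ^ j • O.om j t

/-- **The weights of the power maps** (941): `m^i` on `om (2 i)`, `m^(i+1)` on `om (2 i + 1)`,
`b` odd. -/
def OmegaPwrO {b : ℕ} (O : OmegaOut M b x₀ B k) (m : ℕ) : Prop :=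
  ∀ j t, 0 < t → ∀ h : UMap (P x₀ x₀ t) (P x₀ x₀ (m * t)) (pwr t m),
    hpull k h (j * b) (O.om j (m * t)) = (m : k) ^ ((j + 1) / 2) • O.om j t

theorem umap_pwrP (m : ℕ) {s : ℝ} (hs : 0 ≤ s) :
    UMap (P x₀ x₀ s) (P x₀ x₀ ((m : ℝ) * s)) (pwr s m) :=
  ⟨fun _ hw => pwr_mem_P hs hw m, fun e => e.elim, fun ε hε =>
    ⟨ε, hε, fun _ hw _ hw' h =>
      (dist_pwr hs (MV337.P_subset_FL hw) (MV337.P_subset_FL hw') m).trans_lt h⟩⟩

/-- **[OML-C], power maps.** -/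
theorem omL_pwC {N d m : ℕ} (O : OmegaOutC M (d - 1) N x₀ B k) (hB : 0 < B) (hm : 1 ≤ m)
    (hd : d % 2 = 0) (hd0 : 0 < d) (hN : N % 2 = 0) (hdN : d - 1 < N) (W : OmegaPwrC O m) :
    OmL k (fun t => P x₀ x₀ t) (fun t => pwr t m) m (FsE d N) (wE (m : k) N) := by
  refine omL_C O hB rfl (by exact_mod_cast hm) (fun s hs => umap_pwrP m hs.le)
    (fun j _ s hs h => ?_) fun j s hs h => ?_
  · rw [wE_W _ (by omega) hN]
    exact W.W j s hs h
  · rw [wE_A _ hd hd0 hdN hN]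
    exact W.A j s hs h

/-- **[OML-1], power maps, `n` even.** -/
theorem omL_pwE {n m : ℕ} (O : OmegaOut M (n - 1) x₀ B k) (hB : 0 ≤ B) (hm : 1 ≤ m)
    (hn : n % 2 = 0) (hn4 : 4 ≤ n) (W : OmegaPwrO O m) :
    OmL k (fun t => P x₀ x₀ t) (fun t => pwr t m) m (FsE n (2 * n - 2))
      (wE (m : k) (2 * n - 2)) := by
  refine omL_om O hB (fun q => fsE_iff (by omega)) (by exact_mod_cast hm)
    (fun s hs => umap_pwrP m hs.le) fun j _ s hs h => ?_
  rw [W j s hs h]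
  congr 1
  obtain ⟨i, rfl | rfl⟩ : ∃ i, j = 2 * i ∨ j = 2 * i + 1 := ⟨j / 2, by omega⟩
  · have e1 : 2 * i * (n - 1) = i * (2 * n - 2) := by
      obtain ⟨c, rfl⟩ : ∃ c, n = c + 1 := ⟨n - 1, by omega⟩
      rw [show 2 * (c + 1) - 2 = 2 * c by omega, show c + 1 - 1 = c from rfl]
      ring
    rw [e1, wE_W _ (by omega) (by omega), show (2 * i + 1) / 2 = i by omega]
  · have e1 : (2 * i + 1) * (n - 1) = i * (2 * n - 2) + (n - 1) := by
      obtain ⟨c, rfl⟩ : ∃ c, n = c + 1 := ⟨n - 1, by omega⟩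
      rw [show 2 * (c + 1) - 2 = 2 * c by omega, show c + 1 - 1 = c from rfl]
      ring
    rw [e1, wE_A _ hn (by omega) (by omega) (by omega), show (2 * i + 1 + 1) / 2 = i + 1 by omega]

/-- **[OML-1], power maps, `n` odd.** -/
theorem omL_pwO {n m : ℕ} (O : OmegaOut M (n - 1) x₀ B k) (hB : 0 ≤ B) (hm : 1 ≤ m)
    (hn : 2 ≤ n) (W : OmegaPwrE O m) :
    OmL k (fun t => P x₀ x₀ t) (fun t => pwr t m) m (FsO n) (wO (m : k) n) := by
  refine omL_om O hB (fun q => Iff.rfl) (by exact_mod_cast hm)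
    (fun s hs => umap_pwrP m hs.le) fun j _ s hs h => ?_
  rw [W j s hs h, wO, Nat.mul_div_cancel _ (by omega)]

end Pw

/-! ### The reversal -/

theorem revP_rv (t : ℝ) : RevP (M := M) t (rv t) := fun _ _ => rfl

theorem umap_rvP {s : ℝ} : UMap (P x₀ x₀ s) (P x₀ x₀ s) (rv s) :=
  ⟨fun _ hw => rv_mem_P hw le_rfl, fun e => e.elim, fun ε hε =>
    ⟨ε, hε, fun w _ w' _ h => (dist_rv_le s w w').trans_lt h⟩⟩

/-- **[OML-C], reversal.** -/
theorem omL_rvC {N d : ℕ} (O : OmegaOutC M (d - 1) N x₀ B k) (hB : 0 < B)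
    (hd : d % 2 = 0) (hd0 : 0 < d) (hN : N % 2 = 0) (hdN : d - 1 < N) (W : OmegaSignC O) :
    OmL k (fun t => P x₀ x₀ t) (fun t => rv t) 1 (FsE d N) (wE (-1 : k) N) := by
  have key : ∀ {s u : ℝ}, u = s → UMap (P x₀ x₀ s) (P x₀ x₀ u) (rv s) := by
    rintro s u rfl
    exact umap_rvP
  refine omL_C O hB rfl le_rfl (fun s _ => key (one_mul s)) (fun j _ s hs h => ?_)
    fun j s hs h => ?_
  · rw [wE_W _ (by omega) hN]
    have : ∀ (u : ℝ) (e : u = s) (h : UMap (P x₀ x₀ s) (P x₀ x₀ u) (rv s)),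
        hpull k h (j * N) (O.W j u) = (-1 : k) ^ j • O.W j s := by
      intro u e h
      subst e
      exact W.W j u hs _ (revP_rv u) h
    exact this _ (one_mul s) h
  · rw [wE_A _ hd hd0 hdN hN]
    have : ∀ (u : ℝ) (e : u = s) (h : UMap (P x₀ x₀ s) (P x₀ x₀ u) (rv s)),
        hpull k h (j * N + (d - 1)) (O.A j u) = (-1 : k) ^ (j + 1) • O.A j s := by
      intro u e h
      subst e
      exact W.A j u hs _ (revP_rv u) h
    exact this _ (one_mul s) h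

/-- **[OML-1], reversal, in general.** -/
theorem omL_rv1 {b : ℕ} (O : OmegaOut M b x₀ B k) (hB : 0 ≤ B) {Fs : ℕ → Prop}
    (hFs : ∀ q, Fs q ↔ ∃ j, q = j * b) (W : B64.OmegaSign O) {w : ℕ → k}
    (hw : ∀ j, w (j * b) = (-1 : k) ^ (j + b * (j * (j - 1) / 2))) :
    OmL k (fun t => P x₀ x₀ t) (fun t => rv t) 1 Fs w := by
  have key : ∀ {s u : ℝ}, u = s → UMap (P x₀ x₀ s) (P x₀ x₀ u) (rv s) := by
    rintro s u rfl
    exact umap_rvP
  refine omL_om O hB hFs le_rfl (fun s _ => key (one_mul s)) fun j _ s hs h => ?_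
  rw [hw]
  have : ∀ (u : ℝ) (e : u = s) (h : UMap (P x₀ x₀ s) (P x₀ x₀ u) (rv s)),
      hpull k h (j * b) (O.om j u) = (-1 : k) ^ (j + b * (j * (j - 1) / 2)) • O.om j s := by
    intro u e h
    subst e
    exact W _ j u hs.le (revP_rv u) h
  exact this _ (one_mul s) h

end Vale.Agent.P216.H893D
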