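import Vale.Agent.P216.H893D.MainP
import Vale.Agent.P216.H285.PowK
import Vale.Agent.P216.D773.BaseHK
import Vale.Agent.P216.D773.Rat
import Vale.Agent.P216.D246.DimMono
import Vale.Agent.P216.D246.Thom
import Vale.Agent.P216.H934D.BaseLow
import Vale.Agent.P216.H215.MonoCovMain

/-!
# P216-D: theorem D3 from MID

`KfB M d h`: the fields `k`, `2 ≠ 0`, over which `M` has the cohomology ring of type `(d, h)`.
`d3_h`: `h ≥ 2`.
-/

set_option linter.all false

open Set Topology Bundle Manifold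
open scoped ContDiff

namespace Vale.Agent.P216.H893D

open Vale.Agent.P216.AS Vale.Agent.P216.H901 Vale.Agent.P216.PS Vale.Agent.P216.MV337
open Vale.Agent.P216.H754B Vale.Agent.P216.H894 Vale.Agent.P216.H83 Vale.Agent.P216.B64
open Vale.Agent.P216.H285 Vale.Agent.P216.H774 Vale.Agent.P216.H133C Vale.Agent.P216.H550
open Vale.Agent.P216.H651 Vale.Agent.P216.H774D Vale.Agent.P216.Sl
open Vale.Agent.P216.E2L (BaseH)
open Vale.Agent.P216.H977C (Fld ThomK LowK MidK)
open Vale.Agent.P216.H934D (BaseK)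

section

variable (E : Type) [NormedAddCommGroup E] [NormedSpace ℝ E] [FiniteDimensional ℝ E]
  {M : Type} [MetricSpace M] [CompactSpace M] [ChartedSpace E M] [ConnectedSpace M]

include E in
/-- A connected manifold of dimension zero is a point. -/
theorem subsingleton_of_finrank (h0 : Module.finrank ℝ E = 0) : Subsingleton M := by
  have hE : Subsingleton E := Module.finrank_zero_iff.1 h0
  have hs : ∀ x : M, (chartAt E x).source = {x} := by
    intro x
    refine Subset.antisymm (fun y hy => ?_) (singleton_subset_iff.2 (mem_chart_source E x))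
    exact (chartAt E x).injOn hy (mem_chart_source E x) (Subsingleton.elim _ _)
  refine ⟨fun x y => ?_⟩
  have ho : IsClopen ({x} : Set M) :=
    ⟨isClosed_singleton, by rw [← hs x]; exact (chartAt E x).open_source⟩
  rcases isClopen_iff.1 ho with h | h
  · exact absurd h (singleton_nonempty x).ne_empty
  · have hy : y ∈ ({x} : Set M) := by rw [h]; exact mem_univ y
    exact (mem_singleton_iff.1 hy).symm

/-- `M` is not a point. -/
theorem finrank_pos_of_baseK {k : Type} [Field k] {d h : ℕ} (hd : 1 ≤ d) (hh : 1 ≤ h)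
    (K : BaseK k M d h) : 1 ≤ Module.finrank ℝ E := by
  by_contra h0
  have hM : Subsingleton M := subsingleton_of_finrank E (by omega)
  refine K.ne 1 hh ⟨fun _ => 0, fun _ _ => rfl, 1, one_pos, fun l hl _ => ?_⟩
  have h1 : dl (fun _ : List M => (0 : k)) l = 0 := PS.dl_zero_fun l
  rw [h1]
  refine H934D.pw_Nrm K.nξ 1 l fun hc => ?_
  rcases l with _ | ⟨x, _ | ⟨y, l⟩⟩
  · simp at hl
  · simp only [List.length_cons, List.length_nil] at hl
    omega
  · rw [List.isChain_cons_cons] at hc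
    exact hc.1 (Subsingleton.elim x y)

/-- **[THOM]** for a class of fields. -/
theorem thomK_of {Kf : Fld} {d h n : ℕ} (hE : Module.finrank ℝ E = n) (hn : 1 ≤ n)
    (hdh : n = d * h)
    (hK : ∀ (k : Type) [Field k], Kf k → (2 : k) ≠ 0 ∧ Nonempty (BaseK k M d h)) :
    ThomK Kf M n := by
  intro k _ hk ρ₁ hρ₁
  obtain ⟨h2, ⟨K⟩⟩ := hK k hk
  subst hdh
  have hw : CocL (univ : Set M) (d * h) (H133C.pw K.ξ d h) := H934D.pw_cocL K.hε K.cξ h
  have hw0 := K.ne h le_rfl
  obtain ⟨τ, hτ⟩ := D246.exists_tau_mfd (E := E) h2 hE hn hw hw0 hρ₁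
  refine ⟨τ, fun y he => hw0 ?_⟩
  have h3 := hτ y
  exact H934D.exL_congr (H934D.exL_add (H934D.exL_smul (-1) h3) he) fun l _ => by ring

end

section

variable {E : Type} [NormedAddCommGroup E] [NormedSpace ℝ E] [FiniteDimensional ℝ E]
  {M : Type} [MetricSpace M] [CompactSpace M] [ChartedSpace E M] [IsManifold 𝓘(ℝ, E) ∞ M]
  [RiemannianBundle (fun x : M => TangentSpace 𝓘(ℝ, E) x)]
  [IsContMDiffRiemannianBundle 𝓘(ℝ, E) ∞ E (fun x : M => TangentSpace 𝓘(ℝ, E) x)]
  [IsRiemannianManifold 𝓘(ℝ, E) M] [SimplyConnectedSpace M]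

include E in
/-- **D3 for `h ≥ 2`**, from MID, for a class of fields. -/
theorem d3_even_of {Kf : Fld} {d h : ℕ} (hd : Even d) (hd4 : 4 ≤ d) (hh : 2 ≤ h) (P0 : ℕ)
    (hP : ∀ p : ℕ, ∀ _ : Fact p.Prime, 2 < p → P0 < p → Kf (ZMod p))
    (hK : ∀ (k : Type) [Field k], Kf k → (2 : k) ≠ 0 ∧ Nonempty (BaseK k M d h))
    (hM : MidK Kf M (d * h) (d - 1) (d * (h + 1) - 2)) :
    (primeClosedGeodesicImages M).Infinite := by
  obtain ⟨ρ, hρ, hU, _⟩ := Geo.exists_uniqSeg E M
  -- the dimension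
  have hdim : Module.finrank ℝ E = d * h := by
    obtain ⟨p, hp1, hp2⟩ := Nat.exists_infinite_primes (max P0 2 + 1)
    have hpf : Fact p.Prime := ⟨hp2⟩
    obtain ⟨h2, ⟨K⟩⟩ := hK (ZMod p) (hP p hpf (by omega) (by omega))
    exact D246.finrank_eq_of_baseK h2 (finrank_pos_of_baseK E (by omega) (by omega) K)
      (by omega) K
  have hdh : d * 2 ≤ d * h := Nat.mul_le_mul_left d hh
  have e1 : d * (h + 1) = d * h + d := by ring
  have hn : Even (d * h) := hd.mul_right h
  have hD : Even (d * (h + 1) - 2) := by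
    have := hd.mul_right (h + 1)
    rw [Nat.even_iff] at this ⊢
    omega
  obtain ⟨B0, hB0, hL⟩ := H934D.lowK_of_base (M := M) Kf hρ hU (d := d) (h := h)
    (by omega) (by omega) fun k _ hk => (hK k hk).2
  obtain ⟨x₀, B, hB, H⟩ := H285.omegaPwrK (Kf := Kf) (n := d * h) (e := d - 1)
    (D := d * (h + 1) - 2) (by omega) (by omega) (by omega) hn hD
    (thomK_of E hdim (by omega) rfl hK) hB0 hL hM
  refine main_pC (E := E) (h := h) hd hd4 (by omega) (N := d * (h + 1) - 2) (by omega) P0 x₀ hB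
    (fun p hp h2 h3 => ?_) fun p hp h2 h3 => ?_
  · obtain ⟨O, -, hO⟩ := H (ZMod p) (hP p hp h2 h3)
    exact ⟨O, hO⟩
  · obtain ⟨-, ⟨K⟩⟩ := hK (ZMod p) (hP p hp h2 h3)
    exact D773.baseH_of_baseK K

/-- The fields `k`, `2 ≠ 0`, over which `M` has the cohomology ring of type `(d, h)`. -/
def KfB (M : Type) [MetricSpace M] (d h : ℕ) : Fld := fun k _ =>
  (2 : k) ≠ 0 ∧ Nonempty (BaseK k M d h)

include E in
/-- **D3 for `h ≥ 2`**, from MID. -/
theorem d3_h {d h : ℕ} (hd : Even d) (hd4 : 4 ≤ d) (hh : 2 ≤ h) (hQ : ASCoh.Monogenic M ℚ d h)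
    (hM : MidK (KfB M d h) M (d * h) (d - 1) (d * (h + 1) - 2)) :
    (primeClosedGeodesicImages M).Infinite := by
  obtain ⟨ρ, hρ, hU, _⟩ := Geo.exists_uniqSeg E M
  obtain ⟨K⟩ := H934D.baseK_of_monogenic (k := ℚ) (by omega) hQ
  have hE := finrank_pos_of_baseK E (by omega) (by omega) K
  obtain ⟨N0, hN0⟩ := D773.rat_prime E hE hρ hU (by omega) hQ
  exact d3_even_of (E := E) hd hd4 hh N0 (fun p hp h2 h3 => ⟨two_ne h2, (hN0 p h3).2⟩)
    (fun k _ hk => hk) hM

end

end Vale.Agent.P216.H893D
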