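import Vale.Agent.P216.H893D.OmLC
import Vale.Agent.P216.H456.FLE
import Vale.Agent.P216.H923E.Hx
import Vale.Agent.P216.D907.PwI
import Vale.Agent.P216.H894.RvUH
import Vale.Agent.P216.E2L.Lev
import Vale.Agent.P216.E2L.OpN

/-!
# P216-D, [LEV]: the level statements `E2Lev` from the based loops, their weights and the base
-/

set_option linter.all false

open Set BoundedContinuousFunction

namespace Vale.Agent.P216.H893D

open Sl PS Vale.Agent.P216.MV337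
open Vale.Agent.P216.B64 (HU hres hpull UMap OmegaOut OmegaOutC OmegaSignC OmegaSign)
open Vale.Agent.P216.H894 (FsE FsO BsE BsO wE wO wE_W wE_A E2Lev)
open Vale.Agent.P216.H892 (OmL fib_of)
open Vale.Agent.P216.H754B (rv)
open Vale.Agent.P216.H774D (pwr)
open Vale.Agent.P216.H923E Vale.Agent.P216.H456 Vale.Agent.P216.E2L

variable {k : Type} [Field k] {M : Type} [MetricSpace M] [CompactSpace M]
  [SimplyConnectedSpace M] {x₀ : M} {B ρ : ℝ} {Bs Fs : ℕ → Prop} {w : ℕ → k}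

/-- The fibre step for the power maps. -/
theorem fibFL_pw (hρ : 0 < ρ) (hU : LS.UniqSeg M ρ) {m : ℕ} (hm : 1 ≤ m) (f0 : Fs 0)
    (w0 : w 0 = 1) (L : OmL k (fun t => P x₀ x₀ t) (fun t => pwr t m) m Fs w) :
    Fib (fun w : ℝ →ᵇ M => w 0) univ (fun t => FL M t) (fun t => P x₀ x₀ t) x₀
      (fun s => pwr s m) m k Fs w := by
  obtain ⟨R, ℓ₀, D, ℓ, r0, c, T⟩ := exists_tr0 hρ hU x₀
  exact fib_of T.fibU_FL (fle_cpt x₀) fle_lip (mem_univ _) (fle_ob x₀) (fle_ne univ)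
    (by exact_mod_cast hm) (fle_pwr hm) f0 w0 T.hx_FL (fun s hs => D907.uh_pw T hm hs) L

/-- The fibre step for the reversal. -/
theorem fibFL_rv (hρ : 0 < ρ) (hU : LS.UniqSeg M ρ) (f0 : Fs 0)
    (w0 : w 0 = 1) (L : OmL k (fun t => P x₀ x₀ t) (fun t => rv t) 1 Fs w) :
    Fib (fun w : ℝ →ᵇ M => w 0) univ (fun t => FL M t) (fun t => P x₀ x₀ t) x₀
      (fun s => rv s) 1 k Fs w := by
  obtain ⟨R, ℓ₀, D, ℓ, r0, c, T⟩ := exists_tr0 hρ hU x₀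
  exact fib_of T.fibU_FL (fle_cpt x₀) fle_lip (mem_univ _) (fle_ob x₀) (fle_ne univ)
    le_rfl fle_rv f0 w0 T.hx_FL (fun s hs => H894.uh_rv T hs) L

theorem fsE_zero (d N : ℕ) : FsE d N 0 := ⟨0, Or.inl (Nat.zero_mul N).symm⟩

theorem fsO_zero (n : ℕ) : FsO n 0 := ⟨0, (Nat.zero_mul _).symm⟩

theorem wE_zero (μ : k) (N : ℕ) : wE μ N 0 = 1 := by
  rw [wE, Nat.zero_div, Nat.zero_mod, pow_zero]

theorem wO_zero (μ : k) (n : ℕ) : wO μ n 0 = 1 := by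
  rw [wO, Nat.zero_div, pow_zero]

/-- **The levels, power maps, `OmegaOutC`.** -/
theorem lev_pwC {d N m : ℕ} (hρ : 0 < ρ) (hU : LS.UniqSeg M ρ)
    (O : OmegaOutC M (d - 1) N x₀ B k) (hB : 0 < B) (hm : 1 ≤ m)
    (hd : d % 2 = 0) (hd0 : 0 < d) (hN : N % 2 = 0) (hdN : d - 1 < N) (W : OmegaPwrC O m)
    (b : BaseH k (univ : Set M) Bs) :
    E2Lev k M x₀ Bs (FsE d N) (wE (m : k) N) m fun t => pwr t m :=
  e2Lev_of (fibFL_pw hρ hU hm (fsE_zero d N) (wE_zero _ N)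
    (omL_pwC O hB hm hd hd0 hN hdN W)) b (opN_pwr m)

/-- **The levels, power maps, `OmegaOut`, `n` even.** -/
theorem lev_pwE {n m : ℕ} (hρ : 0 < ρ) (hU : LS.UniqSeg M ρ)
    (O : OmegaOut M (n - 1) x₀ B k) (hB : 0 ≤ B) (hm : 1 ≤ m)
    (hn : n % 2 = 0) (hn4 : 4 ≤ n) (W : OmegaPwrO O m)
    (b : BaseH k (univ : Set M) Bs) :
    E2Lev k M x₀ Bs (FsE n (2 * n - 2)) (wE (m : k) (2 * n - 2)) m fun t => pwr t m :=
  e2Lev_of (fibFL_pw hρ hU hm (fsE_zero n _) (wE_zero _ _) (omL_pwE O hB hm hn hn4 W)) b (opN_pwr m)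

/-- **The levels, power maps, `OmegaOut`, `n` odd.** -/
theorem lev_pwO {n m : ℕ} (hρ : 0 < ρ) (hU : LS.UniqSeg M ρ)
    (O : OmegaOut M (n - 1) x₀ B k) (hB : 0 ≤ B) (hm : 1 ≤ m) (hn : 2 ≤ n) (W : OmegaPwrE O m)
    (b : BaseH k (univ : Set M) Bs) :
    E2Lev k M x₀ Bs (FsO n) (wO (m : k) n) m fun t => pwr t m :=
  e2Lev_of (fibFL_pw hρ hU hm (fsO_zero n) (wO_zero _ _) (omL_pwO O hB hm hn W)) b (opN_pwr m)

/-- **The levels, reversal, `OmegaOutC`.** -/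
theorem lev_rvC {d N : ℕ} (hρ : 0 < ρ) (hU : LS.UniqSeg M ρ)
    (O : OmegaOutC M (d - 1) N x₀ B k) (hB : 0 < B)
    (hd : d % 2 = 0) (hd0 : 0 < d) (hN : N % 2 = 0) (hdN : d - 1 < N) (W : OmegaSignC O)
    (b : BaseH k (univ : Set M) Bs) :
    E2Lev k M x₀ Bs (FsE d N) (wE (-1 : k) N) 1 fun t => rv t :=
  e2Lev_of (fibFL_rv hρ hU (fsE_zero d N) (wE_zero _ N)
    (omL_rvC O hB hd hd0 hN hdN W)) b opN_rv

/-- the exponent of the sign for `n` even -/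
theorem sign_even {k : Type} [Field k] {n : ℕ} (hn : n % 2 = 0) (hn4 : 4 ≤ n) (j : ℕ) :
    wE (-1 : k) (2 * n - 2) (j * (n - 1)) = (-1 : k) ^ (j + (n - 1) * (j * (j - 1) / 2)) := by
  obtain ⟨c, rfl⟩ : ∃ c, n = 2 * c + 2 := ⟨n / 2 - 1, by omega⟩
  have e0 : 2 * c + 2 - 1 = 2 * c + 1 := rfl
  have e1 : 2 * (2 * c + 2) - 2 = 2 * (2 * c + 1) := by omega
  have hs : ∀ a b : ℕ, (-1 : k) ^ (a + 2 * b) = (-1) ^ a := fun a b => by
    rw [pow_add, pow_mul]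
    norm_num
  rw [e0, e1]
  obtain ⟨i, rfl | rfl⟩ : ∃ i, j = 2 * i ∨ j = 2 * i + 1 := ⟨j / 2, by omega⟩
  · rw [show 2 * i * (2 * c + 1) = i * (2 * (2 * c + 1)) by ring, wE_W _ (by omega) (by omega)]
    have e2 : 2 * i * (2 * i - 1) / 2 = i * (2 * i - 1) := by
      rw [Nat.mul_assoc, Nat.mul_div_cancel_left _ (by norm_num)]
    rw [e2]
    -- parity of `2 i + (2 c + 1) i (2 i - 1)`
    rcases Nat.eq_zero_or_pos i with rfl | hi
    · simp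
    obtain ⟨l, rfl⟩ : ∃ l, i = l + 1 := ⟨i - 1, by omega⟩
    have e3 : 2 * (l + 1) - 1 = 2 * l + 1 := by omega
    rw [e3]
    have e4 : 2 * (l + 1) + (2 * c + 1) * ((l + 1) * (2 * l + 1)) =
        (l + 1) + 2 * ((l + 1) + c * ((l + 1) * (2 * l + 1)) + (l + 1) * l) := by ring
    rw [e4, hs]
  · rw [show (2 * i + 1) * (2 * c + 1) = i * (2 * (2 * c + 1)) + (2 * c + 2 - 1) by
      rw [e0]; ring, wE_A _ (by omega) (by omega) (by omega) (by omega)]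
    have e2 : (2 * i + 1) * (2 * i + 1 - 1) / 2 = (2 * i + 1) * i := by
      rw [show 2 * i + 1 - 1 = 2 * i from rfl, show (2 * i + 1) * (2 * i) = 2 * ((2 * i + 1) * i)
        by ring, Nat.mul_div_cancel_left _ (by norm_num)]
    rw [e2]
    have e4 : 2 * i + 1 + (2 * c + 1) * ((2 * i + 1) * i) =
        (i + 1) + 2 * (i + c * ((2 * i + 1) * i) + i * i) := by ring
    rw [e4, hs]

/-- **The levels, reversal, `OmegaOut`, `n` even.** -/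
theorem lev_rv1 {n : ℕ} (hρ : 0 < ρ) (hU : LS.UniqSeg M ρ)
    (O : OmegaOut M (n - 1) x₀ B k) (hB : 0 ≤ B) (hn : n % 2 = 0) (hn4 : 4 ≤ n)
    (W : OmegaSign O) (b : BaseH k (univ : Set M) Bs) :
    E2Lev k M x₀ Bs (FsE n (2 * n - 2)) (wE (-1 : k) (2 * n - 2)) 1 fun t => rv t :=
  e2Lev_of (fibFL_rv hρ hU (fsE_zero n _) (wE_zero _ _)
    (omL_rv1 O hB (fun q => fsE_iff (by omega)) W fun j => sign_even hn hn4 j)) b opN_rv

end Vale.Agent.P216.H893D
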