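import Vale.Agent.P216.E2L.Ext

/-!
# P216-D, [LVL]: the outputs of the Leray engine at the level of lists

Increasing families `Y t`, `t > 0`, over the base `M`, arbitrary losses `∀ t > 0, ∃ T ≥ t`.
-/

set_option linter.all false

open Set

namespace Vale.Agent.P216.H893D

open Sl PS E2L

variable {k : Type} [Field k] {M E : Type} [PseudoMetricSpace M] [PseudoMetricSpace E]

section Mono

variable {π : E → M} {A : Set M} {X X' X₁ X₁' X₂ X₃ : Set E} {p q p' q' m : ℕ} {ε : k}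

theorem slot_mono (h : Slot π A X X' k p q) (h1 : X ⊆ X₁) (h2 : X₁' ⊆ X') :
    Slot π A X₁ X₁' k p q := by
  intro F hF
  obtain ⟨F', hF', G, hG, r, hr, h⟩ := h F (hF.mono h1)
  exact ⟨F', hF'.mono h2, G, hG, r, hr, fun l hl hs =>
    h l hl (hs.mono (inter_subset_inter_left _ h2) le_rfl)⟩

theorem kill_mono (h : Kill π A X X' k p q) (h1 : X ⊆ X₁) (h2 : X₁' ⊆ X') :
    Kill π A X₁ X₁' k p q := by
  intro F hF
  obtain ⟨G, hG, h0, r, hr, h⟩ := h F (hF.mono h1)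
  exact ⟨G, hG, h0, r, hr, fun l hl hs =>
    h l hl (hs.mono (inter_subset_inter_left _ h2) le_rfl)⟩

theorem red_mono (h : Red π A X X' p q p' q' ε) (h1 : X ⊆ X₁) (h2 : X₁' ⊆ X') :
    Red π A X₁ X₁' p q p' q' ε := by
  intro F hF
  obtain ⟨F', hF', G, hG, r, hr, h⟩ := h F (hF.mono h1)
  exact ⟨F', hF'.mono h2, G, hG, r, hr, fun l hl hs =>
    h l hl (hs.mono (inter_subset_inter_left _ h2) le_rfl)⟩

theorem opE_mono {θ : E → E} (h : OpE π X' X θ) (h1 : X ⊆ X₁) (h2 : X₁' ⊆ X') :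
    OpE π X₁' X₁ θ :=
  ⟨fun w hw => h1 (h.maps (h2 hw)), fun r hr => by
    obtain ⟨δ, hδ, hu⟩ := h.uc r hr
    exact ⟨δ, hδ, fun w hw w' hw' => hu w (h2 hw) w' (h2 hw')⟩, fun w hw => h.pi w (h2 hw)⟩

/-- The slot `(p, 0)`: the class comes from the base. -/
theorem base_slot (hπ : ∀ w w', dist (π w) (π w') ≤ dist w w') (hX : X' ⊆ X)
    (hN : NullB π A X X' k 0) (hne : ∀ x ∈ A, ∃ w ∈ X', π w = x) {F : Bi k M E}
    (hF : BC π A X p 0 F) : ∃ c : List M → k, Nrm c ∧ CocL A p c ∧ ∃ r > 0, ∀ l : List E,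
      l.length = p + 1 → SmL (X' ∩ π ⁻¹' A) r l → aw π p F l = c (l.map π) := by
  obtain ⟨Y, hY, hd⟩ := exists_Y hN hF.n hF.e
  refine ⟨fun xs => Y xs [], hY [], ?_, ?_⟩
  · have h1 := dM_mem hd
    rw [map_sub] at h1
    have h2 := sub_mem (Zs_mono hX hF.m) h1
    rw [sub_sub_cancel, dM_dE] at h2
    obtain ⟨r, hr, h⟩ := h2
    refine ⟨r, hr, fun l hl hs => ?_⟩
    rcases l with _ | ⟨x, l⟩
    · simp at hl
    obtain ⟨w, hw, hx⟩ := hne x (hs.1 x (by simp))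
    have h3 := h (x :: l) [w] hl rfl ⟨hs, ⟨fun y hy => ?_, fun y hy z hz => ?_⟩,
      fun y hy z hz => ?_⟩
    · rw [dE_apply, dl_one] at h3
      exact h3
    · rw [List.mem_singleton.1 hy]; exact hw
    · rw [List.mem_singleton.1 hy, List.mem_singleton.1 hz, dist_self]; exact hr
    · rw [List.mem_singleton.1 hz, hx]
      exact hs.2 y hy x (by simp)
  · obtain ⟨r', hr', h'⟩ := aw_mem (q := 0) hπ hd
    refine ⟨r', hr', fun l hl hs => ?_⟩
    have h1 := h' l (by omega) hs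
    rw [map_sub] at h1
    have h3 : aw π p F l = aw π p (dE Y) l := sub_eq_zero.1 h1
    rw [h3, aw_apply, List.take_of_length_le (by omega), dE_apply]
    obtain ⟨w, hw⟩ : ∃ w, l.drop p = [w] := List.length_eq_one_iff.1
      (by rw [List.length_drop]; omega)
    rw [hw, dl_one]

/-- the passage of the slot `(m + 1, 0)` by `θ - 1` -/
theorem obs_eig0 (hπ : ∀ w w', dist (π w) (π w') ≤ dist w w') (hX : X₂ ⊆ X₁)
    (hN : NullB π A X₁ X₂ k 0) (hne : ∀ x ∈ A, ∃ w ∈ X₂, π w = x) {θ : E → E}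
    (h2 : OpE π X₃ X₂ θ) (h2' : OpE π X₃ X₁ θ) (hX3 : X₃ ⊆ X₂) {W : List E → k} {F : Bi k M E}
    (hO : Obs π A X₁ m (m + 1) 0 W F ε) :
    CocL (X₃ ∩ π ⁻¹' A) m (fun l => W (l.map θ) - W l) := by
  obtain ⟨c, -, -, r, hr, hc⟩ := base_slot hπ hX hN hne hO.bc
  obtain ⟨r', hr', h⟩ := hO.eq
  have hm : 0 < min r r' := lt_min hr hr'
  obtain ⟨δ, hδ, h3⟩ := h2.smL (A := A) hm
  refine ⟨min δ (min r r'), lt_min hδ hm, fun l hl hs => ?_⟩
  have s1 := hs.mono subset_rfl (min_le_left _ _)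
  have s2 := (hs.mono (inter_subset_inter_left _ hX3) (min_le_right _ _))
  have s3 := h3 l s1
  have e1 := hc l (by omega) (s2.mono subset_rfl (min_le_left _ _))
  have e2 := hc (l.map θ) (by rw [List.length_map]; omega) (s3.mono subset_rfl (min_le_left _ _))
  have e3 := h l hl (s2.mono (inter_subset_inter_left _ hX) (min_le_right _ _))
  have e4 := h (l.map θ) (by rw [List.length_map, hl])
    (s3.mono (inter_subset_inter_left _ hX) (min_le_right _ _))
  have e5 : (l.map θ).map π = l.map π := by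
    rw [List.map_map]
    exact List.map_congr_left fun w hw => h2.pi w (hs.1 w hw).1
  rw [E2L.dl_sub, Sl.dl_map, e3, e4, e1, e2, e5, sub_self]

/-- the passage of the slot `(p, q + 1)` by `θ - a`, for classes -/
theorem coef_eig {X₂' : Set E} {v : M → List E → k}
    (hπ : ∀ w w', dist (π w) (π w') ≤ dist w w') (hX₁ : X₂' ⊆ X₁)
    (hX₂ : X₂' ⊆ X₂) (hX₃ : X₃ ⊆ X₂') {θ : E → E} (h1 : OpE π X₂' X₁ θ)
    (h2 : OpE π X₂' X₂ θ) {a : k} (hv : OpV π A X₂' (q + 1) v θ a) {z : List E → k}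
    {c : List M → k} (hc : Coef π A X₁ X₂ p q v ε z c) (hK : Kill π A X₂' X₃ k (p + 1) q) :
    ExL (X₃ ∩ π ⁻¹' A) (p + q + 1) fun l => z (l.map θ) - a * z l := by
  obtain ⟨g, r₀, hr₀, hg⟩ := hv
  obtain ⟨hcn, F, hF, ⟨Y, hY, hdY⟩, G, r, hr, hz⟩ := hc
  set F₁ : Bi k M E := pbE θ F - a • F with hF₁
  have hBC : BC π A X₂' p (q + 1) F₁ := by
    have := (h1.bc hF).add ((hF.mono hX₁).smul (-a))
    rwa [neg_smul, ← sub_eq_add_neg] at this
  set Y₁ : Bi k M E := pbE θ Y + ten c g - a • Y with hY₁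
  have hYn : NrmM Y₁ := ((hY.pbE θ).add (ten_nrm hcn g)).sub (hY.smul a)
  have hdd : F₁ - dE Y₁ ∈ Zs π A X₂' k (p + 1) (q + 2) := by
    obtain ⟨ρ, hρ, e1⟩ := h2.mem hdY
    obtain ⟨ρ', hρ', e2⟩ := Zs_mono hX₂ hdY
    refine ⟨min r₀ (min ρ ρ'), lt_min hr₀ (lt_min hρ hρ'), fun xs ws h3 h4 h5 => ?_⟩
    have e1 := e1 xs ws h3 h4
      (h5.mono subset_rfl ((min_le_right _ _).trans (min_le_left _ _)))
    have e2 := e2 xs ws h3 h4
      (h5.mono subset_rfl ((min_le_right _ _).trans (min_le_right _ _)))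
    rcases xs with _ | ⟨x, xs⟩
    · simp at h3
    have e3 := hg x ws (by omega)
      ((h5.mono subset_rfl (min_le_left _ _)).sub (by simp) fun _ h => h)
    have e4 : dE (ten c g) (x :: xs) ws = c (x :: xs) * dl (g x) ws := dE_ten_cons c g x xs ws
    have e1' : F (x :: xs) (ws.map θ) - c (x :: xs) * v x (ws.map θ) -
        dE Y (x :: xs) (ws.map θ) = 0 := e1
    have e2' : F (x :: xs) ws - c (x :: xs) * v x ws - dE Y (x :: xs) ws = 0 := e2
    rw [hY₁, map_sub, map_add, map_smul, dE_pbE]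
    show (F (x :: xs) (ws.map θ) - a * F (x :: xs) ws) -
      ((dE Y (x :: xs) (ws.map θ) + dE (ten c g) (x :: xs) ws) - a * dE Y (x :: xs) ws) = 0
    rw [e4, ← e3]
    linear_combination e1' - a * e2'
  obtain ⟨r₁, hr₁, h3⟩ := aw_step hπ hdd
  obtain ⟨G₂, -, -, r₂, hr₂, h4⟩ := hK _ (hBC.next subset_rfl hYn hdd)
  obtain ⟨r₃, hr₃, h5⟩ := h1.smL (A := A) hr
  refine ⟨fun l => (G (l.map θ) + -a * G l) + ε * ((-1 : k) ^ p * aw π p Y₁ l +
    -(-1 : k) ^ p * G₂ l), fun h => by omega, min (min r₁ r) (min r₂ r₃),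
    lt_min (lt_min hr₁ hr) (lt_min hr₂ hr₃), fun l hl hs => ?_⟩
  have hX₃' := inter_subset_inter_left (π ⁻¹' A) hX₃
  have s1 := hs.mono hX₃' ((min_le_left _ _).trans (min_le_left _ _))
  have s2 := hs.mono (hX₃'.trans (inter_subset_inter_left _ hX₁))
    ((min_le_left _ _).trans (min_le_right _ _))
  have s3 := hs.mono (subset_refl _) ((min_le_right _ _).trans (min_le_left _ _))
  have s4 := hs.mono hX₃' ((min_le_right _ _).trans (min_le_right _ _))
  have e1 := h3 l (by omega) s1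
  have e2 := hz l (by omega) s2
  have e3 := hz (l.map θ) (by rw [List.length_map]; omega) (h5 l s4)
  rw [h1.aw F fun w hw => hX₃ (hs.1 w hw).1] at e3
  have e4 := h4 l (by omega) s3
  have e5 : aw π p F₁ l = aw π p (pbE θ F) l - a * aw π p F l := rfl
  rw [e5] at e1
  have e6 : dl (fun l => (-1 : k) ^ p * aw π p Y₁ l) l = (-1 : k) ^ p * dl (aw π p Y₁) l :=
    dl_mul_left _ _ _
  rw [e6] at e1
  show z (l.map θ) - a * z l = _
  rw [e2, e3, Sl.dl_add, Sl.dl_add, dl_mul_left, dl_mul_left, Sl.dl_map, Sl.dl_add, dl_mul_left,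
    dl_mul_left, ← e4]
  linear_combination ε * e1

end Mono

end Vale.Agent.P216.H893D
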