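import Vale.Agent.P216.H651.StepG
import Vale.Agent.P216.H774D.MainG
import Vale.Agent.P216.D239.SignQ
import Vale.Agent.P216.H539.StMoore
import Vale.Agent.P216.H550.OmC

/-!
# P216-D: the main theorem for `4 ∣ d` from the signs of the reversal

`main_4_lev`: from `OmegaOutC`, `OmegaSignC` and the level statements `E2Lev` for the reversal, for
an unbounded set of primes.
-/

set_option linter.all false

open Set Topology Bundle Manifold
open scoped ContDiff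

namespace Vale.Agent.P216.H893D

open Vale.Agent.P216.AS Vale.Agent.P216.H901 Vale.Agent.P216.PS Vale.Agent.P216.MV337
open Vale.Agent.P216.H754B Vale.Agent.P216.H894 Vale.Agent.P216.H83 Vale.Agent.P216.B64
open Vale.Agent.P216.H285 Vale.Agent.P216.H774 Vale.Agent.P216.H133C Vale.Agent.P216.H550
open Vale.Agent.P216.H651 Vale.Agent.P216.H774D

/-- The stable classes and their signs, `4 ∣ d`. -/
theorem stab_sign {M : Type} [MetricSpace M] [CompactSpace M] {d h N : ℕ} {B : ℝ} {x₀ : M}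
    {k : Type} [Field k] (h2 : (2 : k) ≠ 0) (h4 : 4 ∣ d) (hd : 0 < d) (hh : 0 < h)
    (hD : N + 2 = d * (h + 1)) (hB : 0 < B) (O : OmegaOutC M (d - 1) N x₀ B k)
    (L : E2Lev k M x₀ (BsE d h) (FsE d N) (wE (-1 : k) N) 1 fun t => rv t)
    (hX : ∀ n, ∃ T C, 0 ≤ T ∧ 0 < C ∧ (XP k M n).Step T C) :
    Stab (fun n => XP k M n) (fun i => i * N + (d - 1)) ∧
      ∀ n (o : (XP k M n).Fam), EigRv k M n o (sgn k n) := by
  have h4' : 4 ≤ d := Nat.le_of_dvd hd h4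
  have hqN : d - 1 < N := by
    have : d * 2 ≤ d * (h + 1) := Nat.mul_le_mul_left d (by omega)
    omega
  exact stab_four h2 h4 hd hh hD (by omega) hB O
    (e2Out_rv L hX fun n => stepG_of_omegaC O hB hqN n)

/-- **The main theorem, `4 ∣ d`**, from the based loops with signs and the level statements. -/
theorem main_4_lev
    {E : Type} [NormedAddCommGroup E] [NormedSpace ℝ E] [FiniteDimensional ℝ E]
    {M : Type} [MetricSpace M] [CompactSpace M] [ChartedSpace E M] [IsManifold 𝓘(ℝ, E) ∞ M]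
    [RiemannianBundle (fun x : M => TangentSpace 𝓘(ℝ, E) x)]
    [IsContMDiffRiemannianBundle 𝓘(ℝ, E) ∞ E (fun x : M => TangentSpace 𝓘(ℝ, E) x)]
    [IsRiemannianManifold 𝓘(ℝ, E) M] [PathConnectedSpace M]
    {d h N : ℕ} (h4 : 4 ∣ d) (hd : 0 < d) (hh : 0 < h) (hD : N + 2 = d * (h + 1)) (Q : ℕ → Prop)
    (hQ : ∀ N : ℕ, ∃ p, N < p ∧ p.Prime ∧ Q p)
    (H : ∀ ρ : ℝ, 0 < ρ → LS.UniqSeg M ρ → ∃ (x₀ : M) (B : ℝ), 0 < B ∧ ∀ p : ℕ,
      ∀ _ : Fact p.Prime, 2 < p → Q p → Nonempty (OmegaOutC M (d - 1) N x₀ B (ZMod p)) ∧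
        E2Lev (ZMod p) M x₀ (BsE d h) (FsE d N) (wE (-1 : ZMod p) N) 1 fun t => rv t) :
    (primeClosedGeodesicImages M).Infinite := by
  obtain ⟨ρ₀, hρ₀, hs₀, _⟩ := Geo.exists_uniqSeg E M
  obtain ⟨n, T, i, r, hT, hri⟩ := H269D.exists_dom_manifold E M hρ₀ hs₀
  refine D239.main_CQ (E := E) Q hQ (fun i => i * N + (d - 1)) fun ρ hρ hs => ?_
  obtain ⟨x₀, B, hB, H⟩ := H ρ hρ hs
  obtain ⟨B', hB', H'⟩ := exists_flGenC hρ hs T hT i r hri x₀ hB h4 hd hh hD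
    (q := d - 1) (by omega)
  obtain ⟨I, hI⟩ := Vale.Agent.P216.MR.stMoore M ρ hρ hs 1 one_pos
  have h4' : 4 ≤ d := Nat.le_of_dvd hd h4
  have hqN : d - 1 < N := by
    have : d * 2 ≤ d * (h + 1) := Nat.mul_le_mul_left d (by omega)
    omega
  refine ⟨B' + 3, by linarith, fun p hpp h2 hQp => ?_⟩
  obtain ⟨⟨O⟩, L⟩ := H p hpp h2 hQp
  obtain ⟨hS, hσ⟩ := stab_sign (two_ne h2) h4 hd hh hD hB O L fun n =>
    stepX_of_omegaC hρ hs T hT i r hri (two_ne h2) O hB hqN n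
  obtain ⟨F⟩ := H' (ZMod p) (two_ne h2) O hS fun n o t ht => hσ n o t ht
  exact ⟨xGenC I F hB' hI⟩

end Vale.Agent.P216.H893D
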