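import Vale.Agent.P216.H893D.Lev
import Vale.Agent.P216.H893D.Main4
import Vale.Agent.P216.H774D.MainE2

/-!
# P216-D: the main theorems from the based loops, the weights and the cohomology of `M`

`main_pC`: `d` even, `h ≥ 1` (`OmegaOutC`); `main_pE`, `main_pO`: `h = 1` (`OmegaOut`), power maps;
`main_sC`, `main_sE`: the same from the signs of the reversal, `4 ∣ d`.  Besides the based loops
only the cohomology of `M` (`BaseH`) is assumed.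
-/

set_option linter.all false

open Set Topology Bundle Manifold
open scoped ContDiff

namespace Vale.Agent.P216.H893D

open Vale.Agent.P216.AS Vale.Agent.P216.H901 Vale.Agent.P216.PS Vale.Agent.P216.MV337
open Vale.Agent.P216.H754B Vale.Agent.P216.H894 Vale.Agent.P216.H83 Vale.Agent.P216.B64
open Vale.Agent.P216.H285 Vale.Agent.P216.H774 Vale.Agent.P216.H133C Vale.Agent.P216.H550
open Vale.Agent.P216.H651 Vale.Agent.P216.H774D
open Vale.Agent.P216.E2L (BaseH)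

section

variable {d h N : ℕ}

theorem deg_lt (hd4 : 4 ≤ d) (hh : 0 < h) (hD : N + 2 = d * (h + 1)) : d - 1 < N := by
  have : d * 2 ≤ d * (h + 1) := Nat.mul_le_mul_left d (by omega)
  omega

theorem deg_even (hd : d % 2 = 0) (hD : N + 2 = d * (h + 1)) : N % 2 = 0 := by
  obtain ⟨c, hc⟩ : ∃ c, d = 2 * c := ⟨d / 2, by omega⟩
  have : d * (h + 1) = 2 * (c * (h + 1)) := by rw [hc]; ring
  omega

end

variable {E : Type} [NormedAddCommGroup E] [NormedSpace ℝ E] [FiniteDimensional ℝ E]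
  {M : Type} [MetricSpace M] [CompactSpace M] [ChartedSpace E M] [IsManifold 𝓘(ℝ, E) ∞ M]
  [RiemannianBundle (fun x : M => TangentSpace 𝓘(ℝ, E) x)]
  [IsContMDiffRiemannianBundle 𝓘(ℝ, E) ∞ E (fun x : M => TangentSpace 𝓘(ℝ, E) x)]
  [IsRiemannianManifold 𝓘(ℝ, E) M] [SimplyConnectedSpace M]

include E in
/-- **`d` even, `h ≥ 1`, power maps.** -/
theorem main_pC {d h N : ℕ} (hd : Even d) (hd4 : 4 ≤ d) (hh : 0 < h)
    (hD : N + 2 = d * (h + 1)) (P0 : ℕ) (x₀ : M) {B : ℝ} (hB : 0 < B)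
    (H : ∀ p : ℕ, ∀ _ : Fact p.Prime, 2 < p → P0 < p →
      ∃ O : OmegaOutC M (d - 1) N x₀ B (ZMod p), ∀ m, 1 ≤ m → OmegaPwrC O m)
    (b : ∀ p : ℕ, ∀ _ : Fact p.Prime, 2 < p → P0 < p →
      BaseH (ZMod p) (univ : Set M) (BsE d h)) :
    (primeClosedGeodesicImages M).Infinite := by
  have hd2 := Nat.even_iff.1 hd
  have hqN := deg_lt hd4 hh hD
  refine main_h_E2 (E := E) hd hd4 hh hD P0 x₀ fun ρ hρ hU => ⟨B, hB, fun p hp h2 hP => ?_⟩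
  obtain ⟨O, W⟩ := H p hp h2 hP
  refine ⟨⟨O⟩, fun m hm _ _ _ => ?_⟩
  exact e2Out_pw hm (lev_pwC hρ hU O hB hm hd2 (by omega) (deg_even hd2 hD) hqN (W m hm)
    (b p hp h2 hP)) (fun n => stepX_of_omegaC_mfd E hρ hU (two_ne h2) O hB hqN n)
    fun n => stepG_of_omegaC O hB hqN n

include E in
/-- **`h = 1`, `d = n` even, power maps.** -/
theorem main_pE {n : ℕ} (hn : Even n) (hn4 : 4 ≤ n) (P0 : ℕ) (x₀ : M) {B : ℝ} (hB : 0 < B)
    (H : ∀ p : ℕ, ∀ _ : Fact p.Prime, 2 < p → P0 < p →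
      ∃ O : OmegaOut M (n - 1) x₀ B (ZMod p), ∀ m, 1 ≤ m → OmegaPwrO O m)
    (b : ∀ p : ℕ, ∀ _ : Fact p.Prime, 2 < p → P0 < p →
      BaseH (ZMod p) (univ : Set M) (BsE n 1)) :
    (primeClosedGeodesicImages M).Infinite := by
  have hn2 := Nat.even_iff.1 hn
  have hn0 : 0 < n - 1 := by omega
  refine main_1e_E2 (E := E) hn hn4 P0 x₀ fun ρ hρ hU => ⟨B, hB, fun p hp h2 hP => ?_⟩
  obtain ⟨O, W⟩ := H p hp h2 hP
  refine ⟨⟨O⟩, fun m hm _ _ _ => ?_⟩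
  exact e2Out_pw hm (lev_pwE hρ hU O hB.le hm hn2 hn4 (W m hm) (b p hp h2 hP))
    (fun n => stepX_of_omega_mfd E hρ hU (two_ne h2) O hB hn0 n)
    fun n => stepG_of_omega O hB hn0 n

include E in
/-- **`h = 1`, `d = n` odd, `n ≥ 5`, power maps.** -/
theorem main_pO {n : ℕ} (hn : Odd n) (hn4 : 4 ≤ n) (P0 : ℕ) (x₀ : M) {B : ℝ} (hB : 0 < B)
    (H : ∀ p : ℕ, ∀ _ : Fact p.Prime, 2 < p → P0 < p →
      ∃ O : OmegaOut M (n - 1) x₀ B (ZMod p), ∀ m, 1 ≤ m → OmegaPwrE O m)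
    (b : ∀ p : ℕ, ∀ _ : Fact p.Prime, 2 < p → P0 < p →
      BaseH (ZMod p) (univ : Set M) (BsO n)) :
    (primeClosedGeodesicImages M).Infinite := by
  have hn0 : 0 < n - 1 := by omega
  refine main_1o_E2 (E := E) hn hn4 P0 x₀ fun ρ hρ hU => ⟨B, hB, fun p hp h2 hP => ?_⟩
  obtain ⟨O, W⟩ := H p hp h2 hP
  refine ⟨⟨O⟩, fun m hm _ _ _ => ?_⟩
  exact e2Out_pw hm (lev_pwO hρ hU O hB.le hm (by omega) (W m hm) (b p hp h2 hP))
    (fun n => stepX_of_omega_mfd E hρ hU (two_ne h2) O hB hn0 n)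
    fun n => stepG_of_omega O hB hn0 n

include E in
/-- **`4 ∣ d`, `h ≥ 1`, reversal.** -/
theorem main_sC {d h N : ℕ} (h4 : 4 ∣ d) (hd : 0 < d) (hh : 0 < h)
    (hD : N + 2 = d * (h + 1)) (Q : ℕ → Prop)
    (hQ : ∀ N : ℕ, ∃ p, N < p ∧ p.Prime ∧ Q p) (x₀ : M) {B : ℝ} (hB : 0 < B)
    (H : ∀ p : ℕ, ∀ _ : Fact p.Prime, 2 < p → Q p →
      ∃ O : OmegaOutC M (d - 1) N x₀ B (ZMod p), OmegaSignC O)
    (b : ∀ p : ℕ, ∀ _ : Fact p.Prime, 2 < p → Q p →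
      BaseH (ZMod p) (univ : Set M) (BsE d h)) :
    (primeClosedGeodesicImages M).Infinite := by
  have hd4 : 4 ≤ d := Nat.le_of_dvd hd h4
  have hd2 : d % 2 = 0 := by omega
  have hqN := deg_lt hd4 hh hD
  refine main_4_lev (E := E) h4 hd hh hD Q hQ fun ρ hρ hU => ⟨x₀, B, hB, fun p hp h2 hP => ?_⟩
  obtain ⟨O, W⟩ := H p hp h2 hP
  exact ⟨⟨O⟩, lev_rvC hρ hU O hB hd2 hd (deg_even hd2 hD) hqN W (b p hp h2 hP)⟩

end Vale.Agent.P216.H893D
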