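import Vale.Agent.P216.H787.Cls
import Vale.Agent.P216.H787.COut

/-!
# P216-D, [OML]: the based loops at the level of lists

From compatible classes `Z t` (`OmegaOutC`, `OmegaOut`) with weights to list cochains.
-/

set_option linter.all false

open Set BoundedContinuousFunction

namespace Vale.Agent.P216.H893D

open Sl PS
open Vale.Agent.P216.AS (res pull)
open Vale.Agent.P216.B64 (HU hres hpull UMap hone a0 c0)

variable {k : Type} [Field k] {E : Type} [PseudoMetricSpace E] {O : ℝ → Set E}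

/-- Vanishing. -/
theorem null_of {q : ℕ} {B t : ℝ} (h : O t ⊆ O (t + B))
    (h0 : ∀ z : HU k (O (t + B)) q, hres k h q z = 0) {F : List E → k}
    (hF : CocL (O (t + B)) q F) : ExL (O t) q F := by
  have h1 := h0 (cls (a0 E) (c0 k) F hF)
  have h2 : hres k h q (cls (a0 E) (c0 k) F hF) = cls (a0 E) (c0 k) F (hF.mono h) :=
    res_cls h hF
  rw [h2, cls_eq_zero] at h1
  exact h1

/-- A line. -/
theorem line_of (hO : ∀ {s t}, s ≤ t → O s ⊆ O t) {q : ℕ} (Z : ∀ t, HU k (O t) q)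
    (hZ : ∀ s t (h : s ≤ t), hres k (hO h) q (Z t) = Z s) {B : ℝ} (hB : 0 ≤ B)
    (span : ∀ t, 0 ≤ t → ∀ (h : O t ⊆ O (t + B)) (z : HU k (O (t + B)) q),
      ∃ c : k, hres k h q z = c • Z t)
    {t₀ : ℝ} (h0 : 0 < t₀) (hne : Z t₀ ≠ 0) {θ : ℝ → E → E} {m : ℝ} (hm : 1 ≤ m) {a : k}
    (hθ : ∀ s > 0, UMap (O s) (O (m * s)) (θ s))
    (hw : ∀ s > 0, ∀ h : UMap (O s) (O (m * s)) (θ s), hpull k h q (Z (m * s)) = a • Z s) :
    ∃ t₀ > 0, ∀ t ≥ t₀, ∃ T ≥ t, ∃ v : List E → k, CocL (O T) q v ∧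
      (∀ F, CocL (O T) q F → ∃ a, ExL (O t) q fun l => F l - a * v l) ∧ ¬ ExL (O t₀) q v ∧
      ∀ s > 0, m * s ≤ t → ExL (O s) q fun l => v (l.map (θ s)) - a * v l := by
  refine ⟨t₀, h0, fun t ht => ⟨t + B, by linarith, ?_⟩⟩
  have ht0 : 0 ≤ t := h0.le.trans ht
  obtain ⟨v, hv, -, hvZ⟩ := exists_cls (Z (t + B))
  have key : ∀ s (hs : s ≤ t + B), cls (a0 E) (c0 k) v (hv.mono (hO hs)) = Z s := by
    intro s hs
    rw [← hZ s (t + B) hs, ← hvZ]
    exact (res_cls (hO hs) hv).symm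
  refine ⟨v, hv, fun F hF => ?_, fun he => ?_, fun s hs hst => ?_⟩
  · have hst : t ≤ t + B := by linarith
    obtain ⟨c, hc⟩ := span t ht0 (hO hst) (cls (a0 E) (c0 k) F hF)
    have e1 : hres k (hO hst) q (cls (a0 E) (c0 k) F hF) =
        cls (a0 E) (c0 k) F (hF.mono (hO hst)) := res_cls (hO hst) hF
    rw [e1, ← key t hst, cls_smul, cls_eq_cls] at hc
    exact ⟨c, hc⟩
  · refine hne ?_
    rw [← key t₀ (by linarith), cls_eq_zero]
    exact he
  · have hms : s ≤ m * s := by nlinarith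
    have h1 := hw s hs (hθ s hs)
    rw [← key (m * s) (by linarith), ← key s (by linarith)] at h1
    have h2 := pull_cls (χ := c0 k) (hθ s hs) (hv.mono (hO (show m * s ≤ t + B by linarith)))
    have h3 := h2.symm.trans h1
    rw [cls_smul, cls_eq_cls] at h3
    exact h3

/-- Degree zero. -/
theorem zero_of (Z : ∀ t, HU k (O t) 0) {B : ℝ} (hB : 0 ≤ B)
    (span : ∀ t, 0 ≤ t → ∀ (h : O t ⊆ O (t + B)) (z : HU k (O (t + B)) 0),
      ∃ c : k, hres k h 0 z = c • Z t) {t : ℝ} (ht : 0 ≤ t) (h : O t ⊆ O (t + B))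
    {F : List E → k} (hF : CocL (O (t + B)) 0 F) : ∃ a, ∀ v ∈ O t, F [v] = a := by
  rcases (O t).eq_empty_or_nonempty with he | ⟨v₀, hv₀⟩
  · exact ⟨0, fun v hv => by rw [he] at hv; exact hv.elim⟩
  -- the constant `1`
  have h1 : CocL (O (t + B)) 0 fun _ : List E => (1 : k) := by
    refine ⟨1, one_pos, fun l hl _ => ?_⟩
    obtain ⟨x, y, rfl⟩ := List.length_eq_two.1 hl
    rw [dl_cons, dl_one]
    exact sub_self _
  obtain ⟨c, hc⟩ := span t ht h (cls (a0 E) (c0 k) F hF)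
  obtain ⟨c', hc'⟩ := span t ht h (cls (a0 E) (c0 k) _ h1)
  have hc0 : c' ≠ 0 := by
    rintro rfl
    rw [zero_smul] at hc'
    have e1 : hres k h 0 (cls (a0 E) (c0 k) _ h1) = cls (a0 E) (c0 k) _ (h1.mono h) :=
      res_cls h h1
    rw [e1, cls_eq_zero] at hc'
    obtain ⟨g, hg, ε, hε, h2⟩ := hc'
    have h3 := h2 [v₀] rfl ⟨fun y hy => by rw [List.mem_singleton.1 hy]; exact hv₀,
      fun y hy z hz => by
        rw [List.mem_singleton.1 hy, List.mem_singleton.1 hz, dist_self]; exact hε⟩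
    rw [dl_one, hg rfl] at h3
    exact one_ne_zero h3
  have e : hres k h 0 (cls (a0 E) (c0 k) F hF) =
      (c / c') • hres k h 0 (cls (a0 E) (c0 k) _ h1) := by
    rw [hc, hc', smul_smul, div_mul_cancel₀ _ hc0]
  have e1 : hres k h 0 (cls (a0 E) (c0 k) _ h1) = cls (a0 E) (c0 k) _ (h1.mono h) :=
    res_cls h h1
  have e2 : hres k h 0 (cls (a0 E) (c0 k) F hF) = cls (a0 E) (c0 k) _ (hF.mono h) :=
    res_cls h hF
  rw [e1, e2, cls_smul, cls_eq_cls] at e
  obtain ⟨g, hg, ε, hε, h2⟩ := e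
  refine ⟨c / c', fun v hv => ?_⟩
  have h3 := h2 [v] rfl ⟨fun y hy => by rw [List.mem_singleton.1 hy]; exact hv,
    fun y hy z hz => by
      rw [List.mem_singleton.1 hy, List.mem_singleton.1 hz, dist_self]; exact hε⟩
  rw [dl_one, hg rfl] at h3
  have h4 : F [v] - c / c' * 1 = 0 := h3
  rwa [mul_one, sub_eq_zero] at h4

end Vale.Agent.P216.H893D
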